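import Vale.Agent.P308.H655.Main
import Vale.Agent.P308.H655.Dict
import Vale.Agent.P308.H655.C2
import Vale.Agent.P308.H757.C3

namespace Vale.Agent.Results.P308.DegreeSequenceFPRAS

open Vale.Agent.P308.QP Vale.Agent.P308.Hafnian Vale.Agent.P308.Deg

open scoped Classical in
/-- **Fully polynomial randomized approximation schemes** (1) for the number of perfect matchings
of an arbitrary graph, (2) for the (weighted) number of spanning subgraphs with arbitrary
prescribed degrees of an arbitrary graph, (3) for the number of graphs with an arbitrary degree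
sequence, (4) for the (weighted) number of matchings with exactly `k` edges of an arbitrary
graph; (5) the meaning of the sums in (2) and (4). -/
theorem result :
    (∃ (f : List Bool → List Bool)
      (M : Turing.TM2ComputableInPolyTime (id : List Bool → List Bool)
        (id : List Bool → List Bool) f), (∀ k, Finite (M.tm.Γ k)) ∧
      ∃ d d' : ℕ, ∀ (n : ℕ) (G : SimpleGraph (Fin n)) (ε δ : ℝ), 0 < ε → ε < 1 → 0 < δ → δ < 1 →
        ∀ e l b : ℕ, e = ⌈1 / ε⌉₊ → l = ⌈Real.logb 2 (1 / δ)⌉₊ → b = n + e + l + 2 →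
          (∀ w : List Bool, w.length = b ^ d →
            M.time.eval (block (inputWord G e l) w).length ≤ b ^ d') ∧
          1 - δ ≤ prob (b ^ d) fun w => ∃ a : ℕ, f (block (inputWord G e l) w) = a.bits ∧
            (1 - ε) * numPM G ≤ a ∧ a ≤ (1 + ε) * numPM G) ∧
    HasFPRAS (fun x : Σ X : WeightedGraph, Fin X.n → ℕ => block (matWord x.1.A) (degWord x.2))
      (fun x => degSum x.1.A x.2) ∧
    HasFPRAS (fun x : Σ n : ℕ, Fin n → ℕ => degWord x.2)
      (fun x => ((numGraphs x.2 : ℕ) : ℚ≥0)) ∧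
    HasFPRAS (fun x : WeightedGraph × ℕ => block (matWord x.1.A) x.2.bits)
      (fun x => matchSum x.1.A x.2) ∧
    (∀ (n : ℕ) (G : SimpleGraph (Fin n)),
      (∀ t : Fin n → ℕ, degSum (G.adjMatrix ℚ≥0) t =
        (Nat.card {H : SimpleGraph (Fin n) // H ≤ G ∧ ∀ v, H.degree v = t v} : ℚ≥0)) ∧
      ∀ k : ℕ, matchSum (G.adjMatrix ℚ≥0) k =
        (Nat.card {M : G.Subgraph // M.IsMatching ∧ M.edgeSet.ncard = k} : ℚ≥0)) ∧
    ∀ (n : ℕ) (A : Matrix (Fin n) (Fin n) ℚ≥0), degSum A (fun _ => 1) = haf A :=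
  ⟨Vale.Agent.P308.PA.exists_fpras, fpras_degSum c1 c3a, fpras_numGraphs c1 c4,
    fpras_matchSum c2 c3b, fun _ G => ⟨degSum_adj G, matchSum_adj G⟩, fun _ A => degSum_one A⟩

end Vale.Agent.Results.P308.DegreeSequenceFPRAS
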