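import Vale.Agent.P308.H581.Main

namespace Vale.Agent.Results.P308.HafnianFPRAS

open Vale.Agent.P308.QP Vale.Agent.P308.Hafnian

/-- **Fully polynomial randomized approximation schemes** (1) for the number of perfect matchings
of an arbitrary graph, (2) for the hafnian of an arbitrary symmetric matrix with nonnegative
rational entries (written in binary). -/
theorem result :
    (∃ (f : List Bool → List Bool)
      (M : Turing.TM2ComputableInPolyTime (id : List Bool → List Bool)
        (id : List Bool → List Bool) f), (∀ k, Finite (M.tm.Γ k)) ∧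
      ∃ d d' : ℕ, ∀ (n : ℕ) (G : SimpleGraph (Fin n)) (ε δ : ℝ), 0 < ε → ε < 1 → 0 < δ → δ < 1 →
        ∀ e l b : ℕ, e = ⌈1 / ε⌉₊ → l = ⌈Real.logb 2 (1 / δ)⌉₊ → b = n + e + l + 2 →
          (∀ w : List Bool, w.length = b ^ d →
            M.time.eval (block (inputWord G e l) w).length ≤ b ^ d') ∧
          1 - δ ≤ prob (b ^ d) fun w => ∃ a : ℕ, f (block (inputWord G e l) w) = a.bits ∧
            (1 - ε) * numPM G ≤ a ∧ a ≤ (1 + ε) * numPM G) ∧
    ∃ (f : List Bool → List Bool)
      (M : Turing.TM2ComputableInPolyTime (id : List Bool → List Bool)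
        (id : List Bool → List Bool) f), (∀ k, Finite (M.tm.Γ k)) ∧
      ∃ d d' : ℕ, ∀ (n : ℕ) (A : Matrix (Fin n) (Fin n) ℚ≥0), A.IsSymm →
        ∀ ε δ : ℝ, 0 < ε → ε < 1 → 0 < δ → δ < 1 →
        ∀ e l b : ℕ, e = ⌈1 / ε⌉₊ → l = ⌈Real.logb 2 (1 / δ)⌉₊ →
          b = (matWord A).length + e + l + 2 →
          (∀ w : List Bool, w.length = b ^ d →
            M.time.eval (block (hafWord A e l) w).length ≤ b ^ d') ∧
          1 - δ ≤ prob (b ^ d) fun w => ∃ a c : ℕ, 0 < c ∧
            f (block (hafWord A e l) w) = block a.bits c.bits ∧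
            (1 - ε) * ((haf A : ℚ≥0) : ℝ) ≤ (a : ℝ) / c ∧
            (a : ℝ) / c ≤ (1 + ε) * ((haf A : ℚ≥0) : ℝ) :=
  ⟨Vale.Agent.P308.PA.exists_fpras, exists_haf_fpras⟩

end Vale.Agent.Results.P308.HafnianFPRAS
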